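import Vale.Agent.P235.H56.Defs2
import Vale.Agent.P235.R2.H582.Cap

/-! P235, [EMB] (helper477): insert `a` (joined to `A`) and `b` (joined to `B` and `a`) in one
face of a plane map. -/

set_option autoImplicit false
set_option linter.all false

namespace Vale.Agent.P235.H477

open SimpleGraph Function Vale.Agent.P235.H56 Vale.Agent.P235.R2.H582
open Vale.Agent.P235.H341W (capG)

/-- `ins_edge2`, returning the surgery -/
theorem ins_edge3 {V : Type} [Finite V] {G G' : SimpleGraph V} {σ : Equiv.Perm G.Dart}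
    (hP : PlaneMap G σ) {ι : G.Dart → G'.Dart} {a : G'.Dart} (h : Emb2 G G' id ι a)
    {e1 e2 : G.Dart} (h1 : e1.fst = a.fst) (h2 : e2.fst = a.snd)
    (hs : (faceNext σ).SameCycle e1 e2) :
    ∃ σ' : Equiv.Perm G'.Dart, PlaneMap G' σ' ∧
      Splt (faceNext σ) (faceNext σ') ι a a.symm e1 e2 := by
  classical
  have fD := fin_dart G
  have fD' := fin_dart G'
  have hne : e1 ≠ e2 := by
    intro he
    rw [he] at h1
    exact a.adj.ne (h1.symm.trans h2)
  have nab : a ≠ a.symm := a.symm_ne.symm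
  let ιe : G.Dart ↪ G'.Dart := ⟨ι, h.inj⟩
  set σ' := rot2 σ ιe a a.symm e1 e2 with hσ'
  have r0 : ∀ x, σ x ≠ e1 → σ x ≠ e2 → σ' (ι x) = ι (σ x) := fun x k1 k2 =>
    rot2_old (ι := ιe) h.na h.nb k1 k2
  have r1 : ∀ x, σ x = e1 → σ' (ι x) = a := fun x k1 => rot2_1 (ι := ιe) h.na h.nb hne k1
  have r2 : ∀ x, σ x = e2 → σ' (ι x) = a.symm := fun x k1 => rot2_2 (ι := ιe) nab h.nb k1
  have ra : σ' a = ι e1 := rot2_a (ι := ιe) h.na nab
  have rb : σ' a.symm = ι e2 := rot2_b (ι := ιe) h.na h.nb hne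
  have hsp : Splt (faceNext σ) (faceNext σ') ι a a.symm e1 e2 :=
    { inj := h.inj
      na := h.na
      nb := h.nb
      nab := nab
      all := h.all
      ne := hne
      same := hs
      old := fun x k1 k2 => by
        show σ' (ι x).symm = ι (σ x.symm)
        rw [h.sy]
        exact r0 _ k1 k2
      h1 := fun x k1 => by
        show σ' (ι x).symm = a
        rw [h.sy]
        exact r1 _ k1
      h2 := fun x k1 => by
        show σ' (ι x).symm = a.symm
        rw [h.sy]
        exact r2 _ k1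
      fa := rb
      fb := by
        show σ' a.symm.symm = ι e1
        rw [SimpleGraph.Dart.symm_symm]
        exact ra }
  have hstep : ∀ z, σ'.SameCycle (ι z) (ι (σ z)) := by
    intro z
    by_cases k1 : σ z = e1
    · have s1 := next_cycle σ' (ι z)
      have s2 := next_cycle σ' a
      rw [r1 z k1] at s1
      rw [ra] at s2
      rw [k1]
      exact s1.trans s2
    by_cases k2 : σ z = e2
    · have s1 := next_cycle σ' (ι z)
      have s2 := next_cycle σ' a.symm
      rw [r2 z k2] at s1
      rw [rb] at s2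
      rw [k2]
      exact s1.trans s2
    have s1 := next_cycle σ' (ι z)
    rwa [r0 z k1 k2] at s1
  have hfst : ∀ d, (ι d).fst = d.fst := h.fst
  have hrep : ∀ y : G'.Dart, ∃ x : G.Dart, σ'.SameCycle y (ι x) ∧ x.fst = y.fst := by
    intro y
    rcases h.all y with rfl | rfl | ⟨x, rfl⟩
    · have s2 := next_cycle σ' y
      rw [ra] at s2
      exact ⟨e1, s2, h1⟩
    · have s2 := next_cycle σ' a.symm
      rw [rb] at s2
      exact ⟨e2, s2, h2⟩
    · exact ⟨x, Equiv.Perm.SameCycle.refl _ _, (hfst x).symm⟩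
  refine ⟨σ', ⟨?_, ?_, ?_⟩, hsp⟩
  · intro y
    rcases h.all y with rfl | rfl | ⟨x, rfl⟩
    · rw [ra, hfst]
      exact h1
    · rw [rb, hfst]
      exact h2
    · by_cases k1 : σ x = e1
      · rw [r1 x k1, hfst, ← hP.fst x, k1]
        exact h1.symm
      by_cases k2 : σ x = e2
      · rw [r2 x k2, hfst, ← hP.fst x, k2]
        exact h2.symm
      rw [r0 x k1 k2, hfst, hfst, hP.fst]
  · intro y y' hy
    obtain ⟨x, hx, hxf⟩ := hrep y
    obtain ⟨x', hx', hxf'⟩ := hrep y'
    have h3 := hP.cyc x x' (by rw [hxf, hxf', hy])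
    exact (hx.trans (step_cycle hstep h3)).trans hx'.symm
  · have h3 := hsp.card
    have h4 := hP.euler
    have h5 := h.edges
    show Nat.card V + Nat.card (Cy (faceNext σ')) = Nat.card G'.edgeSet + 2
    have h6 : Nat.card V + Nat.card (Cy (faceNext σ)) = Nat.card G.edgeSet + 2 := h4
    omega

/-- `ins_pend2`, returning the surgery -/
theorem ins_pend3 {V : Type} [Finite V] {G : SimpleGraph V} {G' : SimpleGraph (Option V)}
    {σ : Equiv.Perm G.Dart} (hP : PlaneMap G σ) {ι : G.Dart → G'.Dart} {a : G'.Dart}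
    (h : Emb2 G G' some ι a) {e : G.Dart} (h1 : a.fst = some e.fst) (h2 : a.snd = none) :
    ∃ σ' : Equiv.Perm G'.Dart, PlaneMap G' σ' ∧
      Pend (faceNext σ) (faceNext σ') ι a a.symm e := by
  classical
  have fD := fin_dart G
  have fD' := fin_dart G'
  have nab : a ≠ a.symm := a.symm_ne.symm
  let ιe : G.Dart ↪ G'.Dart := ⟨ι, h.inj⟩
  set σ' := rot1 σ ιe a e with hσ'
  have r0 : ∀ x, σ x ≠ e → σ' (ι x) = ι (σ x) := fun x k1 => rot1_old (ι := ιe) h.na k1
  have r1 : ∀ x, σ x = e → σ' (ι x) = a := fun x k1 => rot1_1 (ι := ιe) k1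
  have ra : σ' a = ι e := rot1_a (ι := ιe) h.na
  have rb : σ' a.symm = a.symm := rot1_b (ι := ιe) h.nb nab.symm
  have hsp : Pend (faceNext σ) (faceNext σ') ι a a.symm e :=
    { inj := h.inj
      na := h.na
      nb := h.nb
      all := h.all
      old := fun x k1 => by
        show σ' (ι x).symm = ι (σ x.symm)
        rw [h.sy]
        exact r0 _ k1
      ha := fun x k1 => by
        show σ' (ι x).symm = a
        rw [h.sy]
        exact r1 _ k1
      fa := rb
      fb := by
        show σ' a.symm.symm = ι e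
        rw [SimpleGraph.Dart.symm_symm]
        exact ra }
  have hstep : ∀ z, σ'.SameCycle (ι z) (ι (σ z)) := by
    intro z
    by_cases k1 : σ z = e
    · have s1 := next_cycle σ' (ι z)
      have s2 := next_cycle σ' a
      rw [r1 z k1] at s1
      rw [ra] at s2
      rw [k1]
      exact s1.trans s2
    have s1 := next_cycle σ' (ι z)
    rwa [r0 z k1] at s1
  have hbf : a.symm.fst = none := h2
  have hrep : ∀ y : G'.Dart, y = a.symm ∨
      ∃ x : G.Dart, σ'.SameCycle y (ι x) ∧ some x.fst = y.fst := by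
    intro y
    rcases h.all y with rfl | rfl | ⟨x, rfl⟩
    · have s2 := next_cycle σ' y
      rw [ra] at s2
      exact Or.inr ⟨e, s2, h1.symm⟩
    · exact Or.inl rfl
    · exact Or.inr ⟨x, Equiv.Perm.SameCycle.refl _ _, (h.fst x).symm⟩
  refine ⟨σ', ⟨?_, ?_, ?_⟩, hsp⟩
  · intro y
    rcases h.all y with rfl | rfl | ⟨x, rfl⟩
    · rw [ra, h.fst]
      exact h1.symm
    · rw [rb]
    · by_cases k1 : σ x = e
      · rw [r1 x k1, h.fst, ← hP.fst x, k1]
        exact h1
      rw [r0 x k1, h.fst, h.fst, hP.fst]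
  · intro y y' hy
    rcases hrep y with k | ⟨x, hx, hxf⟩
    · rcases hrep y' with k' | ⟨x', hx', hxf'⟩
      · rw [k, k']
      · exfalso
        rw [k, hbf] at hy
        rw [← hy] at hxf'
        exact absurd hxf' (by simp)
    · rcases hrep y' with k' | ⟨x', hx', hxf'⟩
      · exfalso
        rw [k', hbf] at hy
        rw [hy] at hxf
        exact absurd hxf (by simp)
      · have h3 := hP.cyc x x' (by
          have : some x.fst = some x'.fst := by rw [hxf, hxf', hy]
          exact Option.some.inj this)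
        exact (hx.trans (step_cycle hstep h3)).trans hx'.symm
  · have h3 := hsp.card
    have h4 := hP.euler
    have h5 := h.edges
    show Nat.card (Option V) + Nat.card (Cy (faceNext σ')) = Nat.card G'.edgeSet + 2
    have h6 : Nat.card V + Nat.card (Cy (faceNext σ)) = Nat.card G.edgeSet + 2 := h4
    have h7 : Nat.card (Option V) = Nat.card V + 1 := Finite.card_option
    omega

/-- the invariant: the new vertex is joined to `T`, the face of the dart `e` (from the new vertex)
runs through `δ p, …, δ (L - 1)`, `r` (a dart to the new vertex) and back to `e` -/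
structure Inv {V : Type} (G : SimpleGraph V) (δ : ℕ → G.Dart) (L : ℕ) (T : Set V) (p : ℕ)
    (σ : Equiv.Perm (capG G T).Dart) (e r : (capG G T).Dart) : Prop where
  plane : PlaneMap (capG G T) σ
  ef : e.fst = none
  rf : r.fst = some (δ 0).fst
  rs : r.snd = none
  next_e : faceNext σ e = cD G T (δ p)
  next : ∀ k, p ≤ k → k + 1 < L → faceNext σ (cD G T (δ k)) = cD G T (δ (k + 1))
  last : faceNext σ (cD G T (δ (L - 1))) = r
  next_r : faceNext σ r = e

section

variable {V : Type} {G : SimpleGraph V} {δ : ℕ → G.Dart} {L : ℕ} {T : Set V} {p : ℕ}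
  {σ : Equiv.Perm (capG G T).Dart} {e r : (capG G T).Dart}

theorem Inv.same (h : Inv G δ L T p σ e r) (k : ℕ) (hk : p ≤ k) (hkL : k < L) :
    (faceNext σ).SameCycle e (cD G T (δ k)) := by
  induction k, hk using Nat.le_induction with
  | base =>
    have := next_cycle (faceNext σ) e
    rwa [h.next_e] at this
  | succ k hk ih =>
    have h1 := ih (by omega)
    have h2 := next_cycle (faceNext σ) (cD G T (δ k))
    rw [h.next k hk hkL] at h2
    exact h1.trans h2

theorem Inv.same_r (h : Inv G δ L T p σ e r) : (faceNext σ).SameCycle e r := by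
  have h2 := next_cycle (faceNext σ) r
  rw [h.next_r] at h2
  exact h2.symm

end

/-- the start -/
theorem inv_zero {V : Type} [Finite V] {G : SimpleGraph V} {σ : Equiv.Perm G.Dart}
    {δ : ℕ → G.Dart} {L : ℕ} (hP : PlaneMap G σ) (hF : FCyc G σ δ L) (hL : 2 ≤ L) :
    ∃ (σ' : Equiv.Perm (capG G {(δ 0).fst}).Dart) (e r : (capG G {(δ 0).fst}).Dart),
      Inv G δ L {(δ 0).fst} 0 σ' e r := by
  obtain ⟨σ', h1, h2⟩ := ins_pend3 hP (emb_pend G (δ 0).fst) (e := δ 0) rfl rfl
  have hinj : ∀ i j, i < L → j < L → i ≠ j → δ i ≠ δ j := by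
    intro i j hi hj hij h
    have := hF.inj i j (by rw [h])
    rw [Nat.mod_eq_of_lt hi, Nat.mod_eq_of_lt hj] at this
    exact hij this
  refine ⟨σ', _, _, ⟨h1, ?_, ?_, ?_, h2.fb, ?_, ?_, h2.fa⟩⟩
  · rfl
  · rfl
  · rfl
  · intro k _ hk
    have h3 := h2.old (δ k) (by
      rw [hF.next]
      exact hinj _ _ hk (by omega) (by omega))
    rw [hF.next] at h3
    exact h3
  · refine h2.ha (δ (L - 1)) ?_
    rw [hF.next]
    have h3 := hF.per 0
    rw [zero_add] at h3
    rw [Nat.sub_add_cancel (by omega)]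
    exact h3

/-- the step -/
theorem inv_step {V : Type} [Finite V] {G : SimpleGraph V} {σ₀ : Equiv.Perm G.Dart}
    {δ : ℕ → G.Dart} {L : ℕ} (hF : FCyc G σ₀ δ L) {T : Set V} {p : ℕ}
    {σ : Equiv.Perm (capG G T).Dart} {e r : (capG G T).Dart} (h : Inv G δ L T p σ e r) {j : ℕ}
    (hpj : p < j) (hjL : j < L) (hj : (δ j).fst ∉ T) {T' : Set V} (hT' : T' = insert (δ j).fst T) :
    ∃ (σ' : Equiv.Perm (capG G T').Dart) (e' r' : (capG G T').Dart), Inv G δ L T' j σ' e' r' := by
  have hsT : T ⊆ T' := by rw [hT']; exact Set.subset_insert _ _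
  have htT : (δ j).fst ∈ T' := by rw [hT']; exact Set.mem_insert _ _
  have hemb := emb_edge G (t := (δ j).fst) hj hT' hsT htT
  obtain ⟨σ', q1, q2⟩ := ins_edge3 h.plane hemb (e1 := e) (e2 := cD G T (δ j)) h.ef rfl
    (h.same j hpj.le hjL)
  have hinj : ∀ i j, i < L → j < L → i ≠ j → δ i ≠ δ j := by
    intro i j hi hj hij h
    have := hF.inj i j (by rw [h])
    rw [Nat.mod_eq_of_lt hi, Nat.mod_eq_of_lt hj] at this
    exact hij this
  have hce : ∀ d, cD G T d ≠ e := by
    intro d hd
    have h1 : (cD G T d).fst = e.fst := by rw [hd]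
    rw [cD_fst, h.ef] at h1
    exact absurd h1 (by simp)
  have hre : r ≠ e := by
    intro hd
    have h1 : r.fst = e.fst := by rw [hd]
    rw [h.rf, h.ef] at h1
    exact absurd h1 (by simp)
  have hrc : ∀ d, r ≠ cD G T d := by
    intro d hd
    have h1 : r.snd = (cD G T d).snd := by rw [hd]
    rw [h.rs] at h1
    exact absurd h1 (by simp [cD])
  refine ⟨σ', nD G htT, uD G hsT r, ⟨q1, rfl, ?_, ?_, q2.fa, ?_, ?_, ?_⟩⟩
  · exact h.rf
  · exact h.rs
  · intro k hk hkL
    have h1 := h.next k (by omega) hkL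
    have h2 := q2.old (cD G T (δ k)) (by rw [h1]; exact hce _) (by
      rw [h1]
      intro h3
      exact hinj _ _ hkL hjL (by omega) (cD_inj G T h3))
    rw [h1] at h2
    exact h2
  · have h2 := q2.old (cD G T (δ (L - 1))) (by rw [h.last]; exact hre) (by
      rw [h.last]; exact hrc _)
    rw [h.last] at h2
    exact h2
  · exact q2.h1 r h.next_r

/-- **[EMB]** -/
theorem embStmt : EmbStmt := by
  intro V _ G σ δ L n A B hP hF hn hnL h0 hn' hA hB
  have key : ∀ i ≤ n, ∃ p ≤ i, ∃ (σ' : Equiv.Perm (capG G {v | v ∈ A ∧ ∃ k ≤ i, (δ k).fst = v}).Dart)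
      (e r : (capG G {v | v ∈ A ∧ ∃ k ≤ i, (δ k).fst = v}).Dart),
      Inv G δ L {v | v ∈ A ∧ ∃ k ≤ i, (δ k).fst = v} p σ' e r := by
    intro i
    induction i with
    | zero =>
      intro _
      have hT : {v | v ∈ A ∧ ∃ k ≤ 0, (δ k).fst = v} = {(δ 0).fst} := by
        ext v
        simp only [Set.mem_setOf_eq, Set.mem_singleton_iff, Nat.le_zero_eq]
        constructor
        · rintro ⟨_, k, rfl, rfl⟩
          rfl
        · rintro rfl
          exact ⟨h0, 0, rfl, rfl⟩
      rw [hT]
      exact ⟨0, le_rfl, inv_zero hP hF (by omega)⟩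
    | succ i ih =>
      intro hi
      obtain ⟨p, hp, σ', e, r, hI⟩ := ih (by omega)
      by_cases hA' : (δ (i + 1)).fst ∈ A
      · refine ⟨i + 1, le_rfl, inv_step hF hI (j := i + 1) (by omega) (by omega) ?_ ?_⟩
        · rintro ⟨_, k, hk, hkv⟩
          have h1 := hF.inj _ _ hkv
          rw [Nat.mod_eq_of_lt (by omega), Nat.mod_eq_of_lt (by omega)] at h1
          omega
        · ext v
          simp only [Set.mem_setOf_eq, Set.mem_insert_iff]
          constructor
          · rintro ⟨hv, k, hk, rfl⟩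
            rcases Nat.lt_or_ge k (i + 1) with h1 | h1
            · exact Or.inr ⟨hv, k, by omega, rfl⟩
            · have : k = i + 1 := by omega
              subst this
              exact Or.inl rfl
          · rintro (rfl | ⟨hv, k, hk, rfl⟩)
            · exact ⟨hA', i + 1, le_rfl, rfl⟩
            · exact ⟨hv, k, by omega, rfl⟩
      · have hT : {v | v ∈ A ∧ ∃ k ≤ i + 1, (δ k).fst = v} = {v | v ∈ A ∧ ∃ k ≤ i, (δ k).fst = v} := by
          ext v
          simp only [Set.mem_setOf_eq]
          constructor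
          · rintro ⟨hv, k, hk, rfl⟩
            refine ⟨hv, k, ?_, rfl⟩
            by_contra hc
            have : k = i + 1 := by omega
            subst this
            exact hA' hv
          · rintro ⟨hv, k, hk, rfl⟩
            exact ⟨hv, k, by omega, rfl⟩
        rw [hT]
        exact ⟨p, by omega, σ', e, r, hI⟩
  have hTA : {v | v ∈ A ∧ ∃ k ≤ n, (δ k).fst = v} = A := by
    ext v
    exact ⟨fun h => h.1, fun h => ⟨h, hA v h⟩⟩
  have hk := key n le_rfl
  rw [hTA] at hk
  obtain ⟨p, hp, σ', e, r, hI⟩ := hk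
  have hface : insert none (some '' B) ⊆ onFace σ' e := by
    rintro v (rfl | ⟨b, hb, rfl⟩)
    · exact ⟨e, Equiv.Perm.SameCycle.refl _ _, hI.ef⟩
    · obtain ⟨i, hi, hiL, rfl⟩ := hB b hb
      rcases Nat.lt_or_ge i L with h1 | h1
      · exact ⟨cD G A (δ i), hI.same i (by omega) h1, rfl⟩
      · have : i = L := by omega
        subst this
        refine ⟨r, hI.same_r, ?_⟩
        rw [hI.rf]
        have h3 := hF.per 0
        rw [zero_add] at h3
        rw [h3]
  obtain ⟨σ'', k1, _⟩ := rowCap' hI.plane (Set.insert_nonempty _ _) hface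
  exact ⟨σ'', k1⟩

end Vale.Agent.P235.H477
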