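import Vale.Agent.P235.H56.Defs

set_option linter.all false

/-! Graphs without a `K_{3,3}` minor: the row K4 (helper477). -/

namespace Vale.Agent.P235.H477

open SimpleGraph Vale.Agent.P235.H134 Vale.Agent.P235.H56

/-- isomorphic graphs (copy of `Quo.planeMap_iso`, light imports) -/
theorem planeMap_iso {V W : Type} {G : SimpleGraph V} {G' : SimpleGraph W} (φ : G ≃g G')
    (h : ∃ σ : Equiv.Perm G.Dart, PlaneMap G σ) : ∃ σ : Equiv.Perm G'.Dart, PlaneMap G' σ := by
  obtain ⟨σ, hσ⟩ := h
  let e : G.Dart ≃ G'.Dart :=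
    { toFun := fun d => ⟨(φ d.fst, φ d.snd), φ.map_adj_iff.2 d.adj⟩
      invFun := fun d => ⟨(φ.symm d.fst, φ.symm d.snd), φ.symm.map_adj_iff.2 d.adj⟩
      left_inv := fun d => by
        ext
        · exact φ.symm_apply_apply _
        · exact φ.symm_apply_apply _
      right_inv := fun d => by
        ext
        · exact φ.apply_symm_apply _
        · exact φ.apply_symm_apply _ }
  let σ' : Equiv.Perm G'.Dart := (e.symm.trans σ).trans e
  have h1 : ∀ d, σ' (e d) = e (σ d) := fun d => by
    show e (σ (e.symm (e d))) = _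
    rw [e.symm_apply_apply]
  have hp : ∀ (n : ℤ) (d : G.Dart), (σ' ^ n) (e d) = e ((σ ^ n) d) := by
    intro n
    induction n using Int.induction_on with
    | zero => intro d; rfl
    | succ n ih =>
      intro d
      rw [zpow_add_one, Equiv.Perm.mul_apply, h1, ih, zpow_add_one, Equiv.Perm.mul_apply]
    | pred n ih =>
      intro d
      have h3 : σ'⁻¹ (e d) = e (σ⁻¹ d) := by
        rw [Equiv.Perm.inv_eq_iff_eq, h1, show σ (σ⁻¹ d) = d from Equiv.apply_symm_apply _ _]
      rw [zpow_sub_one, Equiv.Perm.mul_apply, h3, ih, zpow_sub_one, Equiv.Perm.mul_apply]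
  have h2 : ∀ d, faceNext σ' (e d) = e (faceNext σ d) := fun d => h1 d.symm
  have hf : ∀ (n : ℤ) (d : G.Dart), (faceNext σ' ^ n) (e d) = e ((faceNext σ ^ n) d) := by
    intro n
    induction n using Int.induction_on with
    | zero => intro d; rfl
    | succ n ih =>
      intro d
      rw [zpow_add_one, Equiv.Perm.mul_apply, h2, ih, zpow_add_one, Equiv.Perm.mul_apply]
    | pred n ih =>
      intro d
      have h3 : (faceNext σ')⁻¹ (e d) = e ((faceNext σ)⁻¹ d) := by
        rw [Equiv.Perm.inv_eq_iff_eq, h2,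
          show faceNext σ ((faceNext σ)⁻¹ d) = d from Equiv.apply_symm_apply _ _]
      rw [zpow_sub_one, Equiv.Perm.mul_apply, h3, ih, zpow_sub_one, Equiv.Perm.mul_apply]
  refine ⟨σ', ?_, ?_, ?_⟩
  · intro d
    obtain ⟨d, rfl⟩ := e.surjective d
    rw [h1]
    exact congrArg φ (hσ.fst d)
  · intro d d' hd
    obtain ⟨d, rfl⟩ := e.surjective d
    obtain ⟨d', rfl⟩ := e.surjective d'
    obtain ⟨n, hn⟩ := hσ.cyc d d' (φ.injective hd)
    exact ⟨n, by rw [hp, hn]⟩
  · have e1 : Nat.card V = Nat.card W := Nat.card_congr φ.toEquiv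
    have e2 : Nat.card G.edgeSet = Nat.card G'.edgeSet := Nat.card_congr φ.mapEdgeSet
    have e3 : Nat.card (Quotient (Equiv.Perm.SameCycle.setoid (faceNext σ))) =
        Nat.card (Quotient (Equiv.Perm.SameCycle.setoid (faceNext σ'))) := by
      refine Nat.card_congr (Quotient.congr e fun a b => ?_)
      constructor
      · rintro ⟨n, hn⟩
        exact ⟨n, by rw [hf, hn]⟩
      · rintro ⟨n, hn⟩
        rw [hf] at hn
        exact ⟨n, e.injective hn⟩
    rw [← e1, ← e2, ← e3]
    exact hσ.euler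

/-- the rotation at the vertices of `K₄` -/
def nx : Fin 4 → Fin 4 → Fin 4 := ![![0, 2, 3, 1], ![3, 1, 0, 2], ![1, 3, 2, 0], ![2, 0, 1, 3]]

theorem nx_ne : ∀ u v : Fin 4, u ≠ v → u ≠ nx u v := by decide

theorem nx_three : ∀ u v : Fin 4, nx u (nx u (nx u v)) = v := by decide

theorem nx_cyc : ∀ u v w : Fin 4, u ≠ v → u ≠ w → w = v ∨ w = nx u v ∨ w = nx u (nx u v) := by
  decide

/-- the plane rotation system of `K₄` -/
def rot : Equiv.Perm (⊤ : SimpleGraph (Fin 4)).Dart where
  toFun d := ⟨(d.fst, nx d.fst d.snd), nx_ne _ _ d.adj⟩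
  invFun d := ⟨(d.fst, nx d.fst (nx d.fst d.snd)), nx_ne _ _ (nx_ne _ _ d.adj)⟩
  left_inv d := by
    ext
    · rfl
    · exact congrArg Fin.val (nx_three d.fst d.snd)
  right_inv d := by
    ext
    · rfl
    · exact congrArg Fin.val (nx_three d.fst d.snd)

/-- the face of a dart, named by the vertex which it misses -/
def fc : Fin 4 → Fin 4 → Fin 4 := fun u v =>
  if (0 : Fin 4) ≠ u ∧ (0 : Fin 4) ≠ v ∧ (0 : Fin 4) ≠ nx v u then 0
  else if (1 : Fin 4) ≠ u ∧ (1 : Fin 4) ≠ v ∧ (1 : Fin 4) ≠ nx v u then 1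
  else if (2 : Fin 4) ≠ u ∧ (2 : Fin 4) ≠ v ∧ (2 : Fin 4) ≠ nx v u then 2 else 3

theorem fc_step : ∀ u v : Fin 4, u ≠ v → fc v (nx v u) = fc u v := by decide

theorem fc_surj : ∀ w : Fin 4, ∃ u v : Fin 4, u ≠ v ∧ fc u v = w := by decide

/-- two darts with the same name are at most two steps apart -/
theorem fc_inj : ∀ u v u' v' : Fin 4, u ≠ v → u' ≠ v' → fc u v = fc u' v' →
    (u' = u ∧ v' = v) ∨ (u' = v ∧ v' = nx v u) ∨ (u' = nx v u ∧ v' = nx (nx v u) v) := by decide

theorem face_step (d : (⊤ : SimpleGraph (Fin 4)).Dart) :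
    (faceNext rot d).fst = d.snd ∧ (faceNext rot d).snd = nx d.snd d.fst := ⟨rfl, rfl⟩

theorem fc_same {d e : (⊤ : SimpleGraph (Fin 4)).Dart} (h : (faceNext rot).SameCycle d e) :
    fc d.fst d.snd = fc e.fst e.snd := by
  have h1 : ∀ d : (⊤ : SimpleGraph (Fin 4)).Dart,
      fc (faceNext rot d).fst (faceNext rot d).snd = fc d.fst d.snd := fun d =>
    fc_step d.fst d.snd d.adj
  obtain ⟨n, rfl⟩ := h
  induction n using Int.induction_on with
  | zero => rfl
  | succ n ih => rw [add_comm, zpow_add, zpow_one, Equiv.Perm.mul_apply, h1, ih]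
  | pred n ih =>
    rw [ih, ← h1 ((faceNext rot ^ (-(n : ℤ) - 1)) d), ← Equiv.Perm.mul_apply, ← zpow_one_add]
    congr 3 <;> ring_nf

theorem rot_plane : PlaneMap (⊤ : SimpleGraph (Fin 4)) rot := by
  refine ⟨fun d => rfl, ?_, ?_⟩
  · rintro ⟨⟨u, v⟩, h⟩ ⟨⟨u', w⟩, h'⟩ huu
    have huu' : u = u' := huu
    subst huu'
    have h1 : u ≠ v := h
    have h2 : u ≠ w := h'
    rcases nx_cyc u v w h1 h2 with rfl | rfl | rfl
    · exact ⟨0, rfl⟩
    · exact ⟨1, rfl⟩
    · exact ⟨2, rfl⟩
  · have h1 : Nat.card (⊤ : SimpleGraph (Fin 4)).edgeSet = 6 := by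
      rw [Nat.card_eq_fintype_card, ← SimpleGraph.edgeFinset_card,
        SimpleGraph.card_edgeFinset_top_eq_card_choose_two]
      rfl
    have h2 : Nat.card (Fin 4) = 4 := by simp
    let f : Quotient (Equiv.Perm.SameCycle.setoid (faceNext rot)) → Fin 4 :=
      Quotient.lift (fun d => fc d.fst d.snd) (fun a b h => fc_same h)
    have hf : Function.Bijective f := by
      constructor
      · intro a b
        refine Quotient.inductionOn₂ a b fun d e hde => Quotient.sound ?_
        have hde' : fc d.fst d.snd = fc e.fst e.snd := hde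
        rcases fc_inj d.fst d.snd e.fst e.snd d.adj e.adj hde' with ⟨k1, k2⟩ | ⟨k1, k2⟩ | ⟨k1, k2⟩
        · exact ⟨0, by ext <;> simp [k1, k2]⟩
        · refine ⟨1, ?_⟩
          rw [zpow_one]
          ext
          · exact congrArg Fin.val k1.symm
          · exact congrArg Fin.val k2.symm
        · refine ⟨2, ?_⟩
          have : ((faceNext rot) ^ (2 : ℤ)) d = faceNext rot (faceNext rot d) := rfl
          rw [this]
          ext
          · exact congrArg Fin.val k1.symm
          · exact congrArg Fin.val k2.symm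
      · intro w
        obtain ⟨u, v, h, h'⟩ := fc_surj w
        exact ⟨Quotient.mk _ ⟨(u, v), h⟩, h'⟩
    have h3 := Nat.card_eq_of_bijective f hf
    rw [h1, h3, h2]

theorem k4Stmt : K4Stmt := by
  intro V _ G h3 hcard
  classical
  have : Fintype V := Fintype.ofFinite V
  have hcard' : Fintype.card V = 4 := by rw [← Nat.card_eq_fintype_card]; exact hcard
  have hall : ∀ x y : V, x ≠ y → G.Adj x y := by
    intro x y hxy
    by_contra hcon
    -- the other two vertices
    have hT : ((Finset.univ.erase x).erase y).card = 2 := by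
      rw [Finset.card_erase_of_mem (by simp [hxy.symm]), Finset.card_erase_of_mem (by simp),
        Finset.card_univ, hcard']
    obtain ⟨s, t, hst, hS⟩ := Finset.card_eq_two.1 hT
    have hm : ∀ v, v ≠ x → v ≠ y → v = s ∨ v = t := by
      intro v h1 h2
      have : v ∈ ((Finset.univ.erase x).erase y) := by simp [h1, h2]
      rw [hS] at this
      simpa using this
    have hs : s ≠ x ∧ s ≠ y := by
      have : s ∈ ((Finset.univ.erase x).erase y) := by rw [hS]; simp
      simp at this
      exact ⟨this.2, this.1⟩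
    have ht : t ≠ x ∧ t ≠ y := by
      have : t ∈ ((Finset.univ.erase x).erase y) := by rw [hS]; simp
      simp at this
      exact ⟨this.2, this.1⟩
    rcases h3 s t {x} ⟨x, rfl⟩ (fun h => hs.1 h) (fun h => ht.1 h) (fun u hu v huv => by
      rw [Set.mem_singleton_iff] at hu
      subst hu
      exact Or.inr (hm v huv.ne' (fun h => hcon (h ▸ huv)))) y with h | h | h
    · exact hxy (Set.mem_singleton_iff.1 h).symm
    · exact hs.2 h.symm
    · exact ht.2 h.symm
  have e : Fin 4 ≃ V := Fintype.equivOfCardEq (by simp [hcard'])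
  refine planeMap_iso (G := (⊤ : SimpleGraph (Fin 4))) ⟨e, ?_⟩ ⟨rot, rot_plane⟩
  intro a b
  constructor
  · intro h hab
    exact h.ne (congrArg e hab)
  · intro h
    exact hall _ _ (fun hh => h (e.injective hh))

end Vale.Agent.P235.H477
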