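import Vale.Agent.P235.H56.Defs

set_option linter.all false

/-! Graphs without a `K_{3,3}` minor: the rows K5 and N3 (helper477). -/

namespace Vale.Agent.P235.H477

open SimpleGraph Vale.Agent.P235.H134 Vale.Agent.P235.H56

variable {V : Type} {G : SimpleGraph V}

theorem single_conn (x : V) : (G.induce ({x} : Set V)).Connected := by
  have : Nonempty ({x} : Set V) := ⟨⟨x, rfl⟩⟩
  refine ⟨fun u v => ?_⟩
  have : u = v := Subtype.ext (u.2.trans v.2.symm)
  rw [this]

/-- three disjoint connected sets and three other vertices, all joined -/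
theorem k33_of (D : Set V) (hD : (G.induce D).Connected) (a b c₁ c₂ c₃ : V)
    (hab : a ≠ b) (h12 : c₁ ≠ c₂) (h13 : c₁ ≠ c₃) (h23 : c₂ ≠ c₃)
    (ha : ∀ x ∈ ({c₁, c₂, c₃} : Set V), G.Adj a x) (hb : ∀ x ∈ ({c₁, c₂, c₃} : Set V), G.Adj b x)
    (hd : ∀ x ∈ ({c₁, c₂, c₃} : Set V), ∃ d ∈ D, G.Adj d x)
    (haD : a ∉ D) (hbD : b ∉ D) (hcD : ∀ x ∈ ({c₁, c₂, c₃} : Set V), x ∉ D) :
    IsMinor K33 G := by
  have m1 : c₁ ∈ ({c₁, c₂, c₃} : Set V) := by simp
  have m2 : c₂ ∈ ({c₁, c₂, c₃} : Set V) := by simp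
  have m3 : c₃ ∈ ({c₁, c₂, c₃} : Set V) := by simp
  have a1 := (ha _ m1).ne
  have a2 := (ha _ m2).ne
  have a3 := (ha _ m3).ne
  have b1 := (hb _ m1).ne
  have b2 := (hb _ m2).ne
  have b3 := (hb _ m3).ne
  have d1 := hcD _ m1
  have d2 := hcD _ m2
  have d3 := hcD _ m3
  refine ⟨Sum.elim ![{a}, {b}, D] ![{c₁}, {c₂}, {c₃}], ?_, ?_, ?_⟩
  · rintro (i | i) <;> fin_cases i
    · exact single_conn _
    · exact single_conn _
    · exact hD
    · exact single_conn _
    · exact single_conn _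
    · exact single_conn _
  · have key : ∀ s t : Set V, (∀ x ∈ s, x ∉ t) → Disjoint s t := fun s t h =>
      Set.disjoint_left.2 fun x hx => h x hx
    rintro (i | i) (j | j) hij <;> fin_cases i <;> fin_cases j <;>
      first
      | exact absurd rfl hij
      | (apply key
         intro x hx hx'
         simp at hx hx'
         subst_vars
         first
         | exact hab rfl
         | exact h12 rfl
         | exact h13 rfl
         | exact h23 rfl
         | exact a1 rfl
         | exact a2 rfl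
         | exact a3 rfl
         | exact b1 rfl
         | exact b2 rfl
         | exact b3 rfl
         | contradiction
         | skip)
  · have key : ∀ i j : Fin 3, ∃ x ∈ (![{a}, {b}, D] : Fin 3 → Set V) i,
        ∃ y ∈ (![{c₁}, {c₂}, {c₃}] : Fin 3 → Set V) j, G.Adj x y := by
      intro i j
      have hj : ∃ y ∈ (![{c₁}, {c₂}, {c₃}] : Fin 3 → Set V) j, y ∈ ({c₁, c₂, c₃} : Set V) := by
        fin_cases j
        · exact ⟨c₁, rfl, m1⟩
        · exact ⟨c₂, rfl, m2⟩
        · exact ⟨c₃, rfl, m3⟩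
      obtain ⟨y, hy, hy'⟩ := hj
      fin_cases i
      · exact ⟨a, rfl, y, hy, ha y hy'⟩
      · exact ⟨b, rfl, y, hy, hb y hy'⟩
      · obtain ⟨d, h1, h2⟩ := hd y hy'
        exact ⟨d, h1, y, hy, h2⟩
    rintro (i | i) (j | j) hij
    · exact absurd hij (by simp)
    · exact key i j
    · obtain ⟨x, hx, y, hy, hxy⟩ := key j i
      exact ⟨y, hy, x, hx, hxy.symm⟩
    · exact absurd hij (by simp)


theorem k5Stmt : K5Stmt := by
  intro V _ G a b hab h3 hcard hK
  classical
  have : Fintype V := Fintype.ofFinite V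
  rw [Nat.card_eq_fintype_card] at hcard
  have hne : a ≠ b := hab.ne
  -- the four others are pairwise adjacent
  have hcc : ∀ x y : V, x ≠ a → x ≠ b → y ≠ a → y ≠ b → x ≠ y → G.Adj x y := by
    intro x y hxa hxb hya hyb hxy
    have h := hK ⟨x, hxb⟩ ⟨y, hyb⟩ (fun h => hxy (congrArg Subtype.val h))
    rcases h with ⟨_, h | ⟨h, _⟩ | ⟨h, _⟩⟩
    · exact h
    · exact absurd h hxa
    · exact absurd h hya
  have hor : ∀ x : V, x ≠ a → x ≠ b → G.Adj a x ∨ G.Adj b x := by
    intro x hxa hxb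
    have h := hK ⟨a, hne⟩ ⟨x, hxb⟩ (fun h => hxa (congrArg Subtype.val h).symm)
    rcases h with ⟨_, h | ⟨_, h⟩ | ⟨h, _⟩⟩
    · exact Or.inl h
    · exact Or.inr h
    · exact absurd h hxa
  set T : Finset V := (Finset.univ.erase a).erase b with hT
  have hTm : ∀ x, x ∈ T ↔ x ≠ a ∧ x ≠ b := by
    intro x
    simp [hT, and_comm]
  have hTc : T.card = 4 := by
    rw [hT, Finset.card_erase_of_mem (by simp [hne.symm]), Finset.card_erase_of_mem (by simp),
      Finset.card_univ, hcard]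
  set A : Finset V := T.filter (fun x => G.Adj a x) with hA
  set B : Finset V := T.filter (fun x => G.Adj b x) with hB
  have hAm : ∀ x, x ∈ A ↔ (x ≠ a ∧ x ≠ b) ∧ G.Adj a x := by
    intro x
    rw [hA, Finset.mem_filter, hTm]
  have hBm : ∀ x, x ∈ B ↔ (x ≠ a ∧ x ≠ b) ∧ G.Adj b x := by
    intro x
    rw [hB, Finset.mem_filter, hTm]
  -- degrees
  have deg : ∀ p q : V, p ≠ q → ∀ S : Finset V,
      (∀ x, x ≠ p → x ≠ q → G.Adj p x → x ∈ S) → S ⊆ T → 2 ≤ S.card := by
    intro p q hpq S hS hST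
    by_contra hcon
    have hle : S.card ≤ 1 := by omega
    have : Nonempty V := ⟨p⟩
    obtain ⟨c, hc⟩ : ∃ c, S ⊆ {c} := by
      rcases Finset.card_le_one_iff_subset_singleton.1 hle with ⟨c, hc⟩
      exact ⟨c, hc⟩
    by_cases hcp : c = p
    · have h := h3 q q {p} ⟨p, rfl⟩ (fun h => hpq h.symm) (fun h => hpq h.symm) ?_
      · have hsub : (Finset.univ : Finset V) ⊆ {p, q} := by
          intro y _
          rcases h y with h | h | h
          · simp [Set.mem_singleton_iff.1 h]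
          · simp [h]
          · simp [h]
        have := Finset.card_le_card hsub
        have h2 := Finset.card_le_two (a := p) (b := q)
        rw [Finset.card_univ, hcard] at this
        omega
      · intro u hu v huv
        rw [Set.mem_singleton_iff] at hu
        subst hu
        by_cases hv : v = q
        · exact Or.inr (Or.inl hv)
        · have := hc (hS v huv.ne' hv huv)
          rw [Finset.mem_singleton] at this
          exact absurd (this.trans hcp) huv.ne'
    · have h := h3 q c {p} ⟨p, rfl⟩ (fun h => hpq h.symm) hcp ?_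
      · have hsub : (Finset.univ : Finset V) ⊆ {p, q, c} := by
          intro y _
          rcases h y with h | h | h
          · simp [Set.mem_singleton_iff.1 h]
          · simp [h]
          · simp [h]
        have := Finset.card_le_card hsub
        have h2 := Finset.card_le_three (a := p) (b := q) (c := c)
        rw [Finset.card_univ, hcard] at this
        omega
      · intro u hu v huv
        rw [Set.mem_singleton_iff] at hu
        subst hu
        by_cases hv : v = q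
        · exact Or.inr (Or.inl hv)
        · have := hc (hS v huv.ne' hv huv)
          rw [Finset.mem_singleton] at this
          exact Or.inr (Or.inr this)
  have hA2 : 2 ≤ A.card := by
    refine deg a b hne A (fun x hxa hxb h => (hAm x).2 ⟨⟨hxa, hxb⟩, h⟩) (Finset.filter_subset _ _)
  have hB2 : 2 ≤ B.card := by
    refine deg b a hne.symm B (fun x hxb hxa h => (hBm x).2 ⟨⟨hxa, hxb⟩, h⟩)
      (Finset.filter_subset _ _)
  have hAT : A ⊆ T := Finset.filter_subset _ _
  have hBT : B ⊆ T := Finset.filter_subset _ _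
  have hTB : T \ B ⊆ A := by
    intro x hx
    rw [Finset.mem_sdiff, hTm] at hx
    obtain ⟨⟨hxa, hxb⟩, hx2⟩ := hx
    rcases hor x hxa hxb with h | h
    · exact (hAm x).2 ⟨⟨hxa, hxb⟩, h⟩
    · exact absurd ((hBm x).2 ⟨⟨hxa, hxb⟩, h⟩) hx2
  have hTBc : (T \ B).card ≤ 2 := by
    rw [Finset.card_sdiff_of_subset hBT, hTc]
    omega
  obtain ⟨S, hS1, hS2, hS3⟩ := Finset.exists_subsuperset_card_eq hTB hTBc hA2
  obtain ⟨c₁, c₂, h12, hS⟩ := Finset.card_eq_two.1 hS3
  have hTS : (T \ S).card = 2 := by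
    rw [Finset.card_sdiff_of_subset (hS2.trans hAT), hTc, hS3]
  obtain ⟨c₃, c₄, h34, hS'⟩ := Finset.card_eq_two.1 hTS
  have k1 : c₁ ∈ S := by rw [hS]; simp
  have k2 : c₂ ∈ S := by rw [hS]; simp
  have k3 : c₃ ∈ T \ S := by rw [hS']; simp
  have k4 : c₄ ∈ T \ S := by rw [hS']; simp
  have l1 := (hAm _).1 (hS2 k1)
  have l2 := (hAm _).1 (hS2 k2)
  have tb : ∀ c ∈ T \ S, (c ≠ a ∧ c ≠ b) ∧ G.Adj b c := by
    intro c hc
    rw [Finset.mem_sdiff] at hc
    refine (hBm c).1 ?_
    by_contra hcB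
    exact hc.2 (hS1 (Finset.mem_sdiff.2 ⟨hc.1, hcB⟩))
  have l3 := tb _ k3
  have l4 := tb _ k4
  have n3 := (Finset.mem_sdiff.1 k3).2
  have n4 := (Finset.mem_sdiff.1 k4).2
  have e13 : c₁ ≠ c₃ := fun h => n3 (h ▸ k1)
  have e14 : c₁ ≠ c₄ := fun h => n4 (h ▸ k1)
  have e23 : c₂ ≠ c₃ := fun h => n3 (h ▸ k2)
  have e24 : c₂ ≠ c₄ := fun h => n4 (h ▸ k2)
  refine k33_of {c₄} (single_conn _) a c₃ b c₁ c₂ l3.1.1.symm l1.1.2.symm l2.1.2.symm h12
    ?_ ?_ ?_ ?_ ?_ ?_
  · rintro x (rfl | rfl | rfl)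
    · exact hab
    · exact l1.2
    · exact l2.2
  · rintro x (rfl | rfl | rfl)
    · exact l3.2.symm
    · exact hcc _ _ l3.1.1 l3.1.2 l1.1.1 l1.1.2 e13.symm
    · exact hcc _ _ l3.1.1 l3.1.2 l2.1.1 l2.1.2 e23.symm
  · rintro x (rfl | rfl | rfl)
    · exact ⟨c₄, rfl, l4.2.symm⟩
    · exact ⟨c₄, rfl, hcc _ _ l4.1.1 l4.1.2 l1.1.1 l1.1.2 e14.symm⟩
    · exact ⟨c₄, rfl, hcc _ _ l4.1.1 l4.1.2 l2.1.1 l2.1.2 e24.symm⟩
  · exact fun h => l4.1.1 h.symm
  · exact fun h => h34 h
  · rintro x (rfl | rfl | rfl)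
    · exact fun h => l4.1.2 h.symm
    · exact fun h => e14 h
    · exact fun h => e24 h

end Vale.Agent.P235.H477
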