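import Vale.Agent.P235.H477.K5

set_option linter.all false

/-! Graphs without a `K_{3,3}` minor: the row N3 (helper477). -/

namespace Vale.Agent.P235.H477

open SimpleGraph Vale.Agent.P235.H134 Vale.Agent.P235.H56

variable {V : Type} {G : SimpleGraph V}

theorem comp_step {X : Set V} {u x y : V} (hx : x ∈ compSet G X u) (h : G.Adj x y) (hy : y ∉ X) :
    y ∈ compSet G X u := by
  obtain ⟨p, hp⟩ := hx
  refine ⟨p.concat h, fun a ha => ?_⟩
  rw [SimpleGraph.Walk.support_concat, List.mem_append, List.mem_singleton] at ha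
  rcases ha with ha | rfl
  · exact hp a ha
  · exact hy

theorem comp_out {X : Set V} {u x : V} (hx : x ∈ compSet G X u) : x ∉ X := by
  obtain ⟨p, hp⟩ := hx
  exact hp x p.end_mem_support

theorem comp_conn {X : Set V} {u : V} (hu : u ∉ X) : (G.induce (compSet G X u)).Connected := by
  have key : ∀ (a v : V) (p : G.Walk a v) (hp : ∀ b ∈ p.support, b ∉ X)
      (ha : a ∈ compSet G X u) (hv : v ∈ compSet G X u),
      (G.induce (compSet G X u)).Reachable ⟨a, ha⟩ ⟨v, hv⟩ := by
    intro a v p
    induction p with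
    | nil => intro _ _ _; exact SimpleGraph.Reachable.refl _
    | @cons a b v h p ih =>
      intro hp ha hv
      rw [SimpleGraph.Walk.support_cons] at hp
      have hb : b ∉ X := hp b (List.mem_cons_of_mem _ p.start_mem_support)
      have hab : b ∈ compSet G X u := comp_step ha h hb
      have h1 : (G.induce (compSet G X u)).Adj ⟨a, ha⟩ ⟨b, hab⟩ := h
      exact h1.reachable.trans (ih (fun c hc => hp c (List.mem_cons_of_mem _ hc)) hab hv)
  have hu' : u ∈ compSet G X u := ⟨SimpleGraph.Walk.nil, by simpa using hu⟩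
  have h2 : ∀ x : compSet G X u, (G.induce (compSet G X u)).Reachable ⟨u, hu'⟩ x := by
    rintro ⟨x, hx⟩
    obtain ⟨p, hp⟩ := hx
    exact key u x p hp hu' ⟨p, hp⟩
  rw [SimpleGraph.connected_iff]
  exact ⟨fun x y => (h2 x).symm.trans (h2 y), ⟨⟨u, hu'⟩⟩⟩

theorem n3Stmt : N3Stmt := by
  intro V _ G a b c₁ c₂ c₃ h3 hcard hab hNa hNb h12 h13 h23
  classical
  have : Fintype V := Fintype.ofFinite V
  rw [Nat.card_eq_fintype_card] at hcard
  set X : Set V := {a, b, c₁, c₂, c₃} with hX
  -- a sixth vertex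
  obtain ⟨w, hw⟩ : ∃ w, w ∉ X := by
    by_contra hcon
    push Not at hcon
    have hsub : (Finset.univ : Finset V) ⊆ {a, b, c₁, c₂, c₃} := by
      intro y _
      have := hcon y
      simpa [hX] using this
    have h1 := Finset.card_le_card hsub
    have h2 : ({a, b, c₁, c₂, c₃} : Finset V).card ≤ 5 := Finset.card_le_five
    rw [Finset.card_univ] at h1
    omega
  set D : Set V := compSet G X w with hD
  have hwD : w ∈ D := ⟨SimpleGraph.Walk.nil, by simpa using hw⟩
  have haX : a ∈ X := by simp [hX]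
  have hbX : b ∈ X := by simp [hX]
  have h1X : c₁ ∈ X := by simp [hX]
  have h2X : c₂ ∈ X := by simp [hX]
  have h3X : c₃ ∈ X := by simp [hX]
  have nD : ∀ {x}, x ∈ X → x ∉ D := fun hx hxD => comp_out hxD hx
  -- outer neighbours of `D`
  have hout : ∀ u ∈ D, ∀ v, G.Adj u v → v ∈ D ∨ v = c₁ ∨ v = c₂ ∨ v = c₃ := by
    intro u hu v huv
    by_cases hv : v ∈ X
    · right
      have hv' : v = a ∨ v = b ∨ v = c₁ ∨ v = c₂ ∨ v = c₃ := by simpa [hX] using hv
      rcases hv' with rfl | rfl | h
      · exfalso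
        refine nD ?_ hu
        rcases (hNa u).1 huv.symm with h | h | h | h <;> rw [h]
        · exact hbX
        · exact h1X
        · exact h2X
        · exact h3X
      · exfalso
        refine nD ?_ hu
        rcases (hNb u).1 huv.symm with h | h | h | h <;> rw [h]
        · exact haX
        · exact h1X
        · exact h2X
        · exact h3X
      · exact h
    · exact Or.inl (comp_step hu huv hv)
  have na : ∀ x ∈ ({c₁, c₂, c₃} : Set V), G.Adj a x := by
    rintro x (rfl | rfl | rfl)
    · exact (hNa _).2 (Or.inr (Or.inl rfl))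
    · exact (hNa _).2 (Or.inr (Or.inr (Or.inl rfl)))
    · exact (hNa _).2 (Or.inr (Or.inr (Or.inr rfl)))
  have nb : ∀ x ∈ ({c₁, c₂, c₃} : Set V), G.Adj b x := by
    rintro x (rfl | rfl | rfl)
    · exact (hNb _).2 (Or.inr (Or.inl rfl))
    · exact (hNb _).2 (Or.inr (Or.inr (Or.inl rfl)))
    · exact (hNb _).2 (Or.inr (Or.inr (Or.inr rfl)))
  have a1 : a ≠ c₁ := (na c₁ (by simp)).ne
  have a2 : a ≠ c₂ := (na c₂ (by simp)).ne
  have a3 : a ≠ c₃ := (na c₃ (by simp)).ne
  -- two of the three do not separate `D` from `a`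
  have sep : ∀ s t r : V, s ∈ X → t ∈ X → a ≠ s → a ≠ t →
      (∀ v, v = c₁ ∨ v = c₂ ∨ v = c₃ → v = s ∨ v = t ∨ v = r) → ∃ d ∈ D, G.Adj d r := by
    intro s t r hs ht has hat hall
    by_contra hcon
    push Not at hcon
    have h := h3 s t D ⟨w, hwD⟩ (nD hs) (nD ht) (fun u hu v huv => by
      rcases hout u hu v huv with h | h
      · exact Or.inl h
      · rcases hall v h with h | h | h
        · exact Or.inr (Or.inl h)
        · exact Or.inr (Or.inr h)
        · exact absurd (h ▸ huv) (hcon u hu)) a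
    rcases h with h | h | h
    · exact nD haX h
    · exact has h
    · exact hat h
  refine k33_of D (comp_conn hw) a b c₁ c₂ c₃ hab h12 h13 h23 na nb ?_ (nD haX) (nD hbX) ?_
  · rintro x (rfl | rfl | rfl)
    · exact sep c₂ c₃ _ h2X h3X a2 a3 (by tauto)
    · exact sep c₁ c₃ _ h1X h3X a1 a3 (by tauto)
    · exact sep c₁ c₂ _ h1X h2X a1 a2 (by tauto)
  · rintro x (rfl | rfl | rfl)
    · exact nD h1X
    · exact nD h2X
    · exact nD h3X

end Vale.Agent.P235.H477
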